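import Mathlib
import Vale.Agent.P196.Defs

/-!
# P196, round 2: base definitions

The tiling `tl : ℤ × ℤ → Tile`, the space `Om n = (ℤ × ℤ) × Fin n`, the lamps, the floor
translations and the group `G n`.
-/

namespace Vale.Agent.P196.R2

/-- The plane of positions. -/
abbrev Z2 := ℤ × ℤ

/-- Colour of a wire. A row of level `j` carries `(x_j, x_{j+1}, y_{j+1})`,
a column of level `i` carries `(y_i, y_{i+1}, x_{i+1})`. -/
abbrev Col := Bool × Bool × Bool

/-- A labelled Wang tile: parity label `(la, lb)` and the colours of its west, east, south and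
north sides. -/
structure Tile where
  la : Bool
  lb : Bool
  w : Col
  e : Col
  s : Col
  n : Col
deriving DecidableEq, Repr

/-- A tile is a 6-tuple. -/
def Tile.equivProd : Tile ≃ Bool × Bool × Col × Col × Col × Col where
  toFun T := (T.la, T.lb, T.w, T.e, T.s, T.n)
  invFun p := ⟨p.1, p.2.1, p.2.2.1, p.2.2.2.1, p.2.2.2.2.1, p.2.2.2.2.2⟩
  left_inv _ := rfl
  right_inv _ := rfl

instance : Fintype Tile := Fintype.ofEquiv _ Tile.equivProd.symm

/-- row of level `j` meets column of level `i = j`. -/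
def Tile.IsEq (T : Tile) : Prop :=
  T.w.1 = false ∧ T.e = (true, T.w.2) ∧ T.s.1 = false ∧ T.n = (true, T.s.2) ∧
    T.s.2.2 = T.w.2.1 ∧ T.w.2.2 = T.s.2.1

/-- the column is of higher level than the row. -/
def Tile.IsGt (T : Tile) : Prop :=
  T.s = T.n ∧ T.w.1 = true ∧ T.e = (false, !T.w.2.1, T.w.2.2) ∧
    (T.w.2.1 = false → T.n.1 = T.w.2.2)

/-- the row is of higher level than the column. -/
def Tile.IsLt (T : Tile) : Prop :=
  T.w = T.e ∧ T.s.1 = true ∧ T.n = (false, !T.s.2.1, T.s.2.2) ∧
    (T.s.2.1 = false → T.e.1 = T.s.2.2)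

instance (T : Tile) : Decidable T.IsEq := by unfold Tile.IsEq; infer_instance
instance (T : Tile) : Decidable T.IsGt := by unfold Tile.IsGt; infer_instance
instance (T : Tile) : Decidable T.IsLt := by unfold Tile.IsLt; infer_instance

/-- The 104 legal labelled tiles. -/
def Tile.Legal (T : Tile) : Prop :=
  match T.la, T.lb with
  | true, true => T.IsEq
  | true, false => T.IsLt
  | false, true => T.IsGt
  | false, false => T.IsEq ∨ T.IsGt ∨ T.IsLt

instance (T : Tile) : Decidable T.Legal := by
  unfold Tile.Legal; split <;> infer_instance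

/-- Legal tiles as a type (104 elements). -/
abbrev LTile := {T : Tile // T.Legal}

/-- colour of the row `b` on the edge between columns `a` and `a + 1`. -/
def rowc (a b : ℤ) : Col :=
  if b = 0 then (if a < 0 then (true, true, false) else (false, false, false))
  else (a.testBit (padicValInt 2 b), a.testBit (padicValInt 2 b + 1),
    b.testBit (padicValInt 2 b + 1))

/-- colour of the column `a` on the edge between rows `b` and `b + 1`. -/
def colc (a b : ℤ) : Col :=
  if a = 0 then (false, false, false)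
  else (b.testBit (padicValInt 2 a), b.testBit (padicValInt 2 a + 1),
    a.testBit (padicValInt 2 a + 1))

/-- The tiling. -/
def tl (z : Z2) : Tile :=
  ⟨z.1.testBit 0, z.2.testBit 0, rowc (z.1 - 1) z.2, rowc z.1 z.2, colc z.1 (z.2 - 1),
    colc z.1 z.2⟩

/-- `0/1` value of a Boolean, as an integer. -/
def b2z (b : Bool) : ℤ := if b then 1 else 0

/-- The `2 × 2` substitution: the level `m+1` tile `T` consists of the four level `m` tiles
`T.sub u`, `u ∈ {0,1}²`. -/
def Tile.sub (T : Tile) : Bool × Bool → Tile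
  | (false, false) => ⟨false, false, T.w, T.e, T.s, T.n⟩
  | (true, true) => ⟨true, true, (false, T.la, T.lb), (true, T.la, T.lb), (false, T.lb, T.la),
      (true, T.lb, T.la)⟩
  | (true, false) => ⟨true, false, T.e, T.e, (true, !T.lb, T.la), (false, T.lb, T.la)⟩
  | (false, true) => ⟨false, true, (true, !T.la, T.lb), (false, T.la, T.lb), T.n, T.n⟩

/-- The set on which the group acts: `n` floors over the plane. -/
abbrev Om (n : ℕ) := Z2 × Fin n

open Classical in
/-- lamp: apply `σ` to the floors over `U`. -/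
noncomputable def lampP {n : ℕ} (U : Set Z2) (σ : Equiv.Perm (Fin n)) : Equiv.Perm (Om n) where
  toFun p := if p.1 ∈ U then (p.1, σ p.2) else p
  invFun p := if p.1 ∈ U then (p.1, σ⁻¹ p.2) else p
  left_inv p := by by_cases h : p.1 ∈ U <;> simp [h]
  right_inv p := by by_cases h : p.1 ∈ U <;> simp [h]

/-- floor translation: move the floor `i` by `w i`. -/
def trP {n : ℕ} (w : Fin n → Z2) : Equiv.Perm (Om n) where
  toFun p := (p.1 + w p.2, p.2)
  invFun p := (p.1 - w p.2, p.2)
  left_inv p := by simp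
  right_inv p := by simp

/-- The group: generated by the lamps `σ` even over the occurrences of one tile, and by the floor
translations of total displacement zero. -/
def G (n : ℕ) : Subgroup (Equiv.Perm (Om n)) :=
  Subgroup.closure
    ({g | ∃ (T : Tile) (σ : Equiv.Perm (Fin n)), σ ∈ alternatingGroup (Fin n) ∧
        g = lampP {z | tl z = T} σ} ∪
     {g | ∃ w : Fin n → Z2, ∑ i, w i = 0 ∧ g = trP w})

/-! ## Clopen sets -/

/-- the nearest level-`m` vertex (its macro coordinate): `z = 2^m * cv m z + off`, with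
`off ∈ [-2^(m-1), 2^(m-1))²` (and `cv 0 z = z`). -/
def cv (m : ℕ) (z : Z2) : Z2 := ((z.1 + 2 ^ m / 2) / 2 ^ m, (z.2 + 2 ^ m / 2) / 2 ^ m)

/-- offset from the nearest level-`m` vertex. -/
def co (m : ℕ) (z : Z2) : Z2 := (z.1 - 2 ^ m * (cv m z).1, z.2 - 2 ^ m * (cv m z).2)

/-- A subset of the plane is clopen of level `m` if membership of `z` depends only on the offset
from the nearest level-`m` vertex `V` and on the tile `tl V`. -/
def ClpAt (m : ℕ) (U : Set Z2) : Prop :=
  ∀ z z' : Z2, co m z = co m z' → tl (cv m z) = tl (cv m z') → (z ∈ U ↔ z' ∈ U)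

/-- clopen sets. -/
def Clp (U : Set Z2) : Prop := ∃ m, ClpAt m U

/-- translate of a set: `z ∈ shiftS d U ↔ z - d ∈ U`. -/
def shiftS (d : Z2) (U : Set Z2) : Set Z2 := {z | z - d ∈ U}

/-- translate of a cell. -/
def shiftC {n : ℕ} (d : Z2) (p : Om n) : Om n := (p.1 + d, p.2)

/-! ## Multisections -/

/-- The cells in `S` are admissible over the base `U`: the translates of `U` by the cells of `S`
are pairwise disjoint in `Om n`. -/
def Adm {n : ℕ} (U : Set Z2) (S : Set (Om n)) : Prop :=
  ∀ z ∈ U, ∀ z' ∈ U, ∀ c ∈ S, ∀ c' ∈ S, (z + c.1, c.2) = (z' + c'.1, c'.2) → z = z' ∧ c = c'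

/-- support of a multisection. -/
def supp {n : ℕ} (U : Set Z2) (S : Set (Om n)) : Set (Om n) :=
  {p | ∃ z ∈ U, ∃ c ∈ S, p = (z + c.1, c.2)}

/-- `g` acts on the cells of `S` over `U` by `σ` (and is the identity outside the support). -/
def ActsAs {n : ℕ} (g : Equiv.Perm (Om n)) (U : Set Z2) (S : Finset (Om n))
    (σ : Equiv.Perm {x // x ∈ S}) : Prop :=
  (∀ z ∈ U, ∀ c : {x // x ∈ S}, g (z + c.1.1, c.1.2) = (z + (σ c).1.1, (σ c).1.2)) ∧
  ∀ p, p ∉ supp U (S : Set (Om n)) → g p = p

end Vale.Agent.P196.R2
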