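import Vale.Agent.P196.R2.Base

/-!
# P196, round 2: interfaces between the blocks (definitions of structures and statements only)
-/

namespace Vale.Agent.P196.R2

open Equiv

/-- the 3-cycle `a → b → c → a`. -/
def cyc3 {α : Type*} [DecidableEq α] (a b c : α) : Perm α := swap a b * swap b c

/-- `f` sends the three-cycles of `Alt S` to the given elements. -/
def SendsCyc {S Γ : Type*} [Fintype S] [DecidableEq S] [Group Γ] (f : alternatingGroup S →* Γ)
    (T : S → S → S → Γ) : Prop :=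
  ∀ (a b c : S) (σ : alternatingGroup S), a ≠ b → b ≠ c → a ≠ c → (σ : Perm S) = cyc3 a b c →
    f σ = T a b c

/-- **ALTCOLIM** -/
def AltColimStmt : Prop :=
  ∀ (S : Type) [Fintype S] [DecidableEq S] (Γ : Type) [Group Γ], 5 ≤ Fintype.card S →
    ∀ T : S → S → S → Γ,
      (∀ R : Finset S, R.card = 5 → ∃ f : alternatingGroup {x // x ∈ R} →* Γ,
        SendsCyc f (fun a b c => T a b c)) →
      ∃ f : alternatingGroup S →* Γ, SendsCyc f T

/-! ## FP side -/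

/-- Tile-level data in a group `E` (this is what the finite presentation says). -/
structure TileSys (n : ℕ) (E : Type*) [Group E] where
  /-- lamps at the location `0`. -/
  rho : (LTile → alternatingGroup (Fin n)) →* E
  /-- floor translations (only used for `∑ w = 0`). -/
  tr : (Fin n → Z2) → E
  tr_add : ∀ w w' : Fin n → Z2, ∑ i, w i = 0 → ∑ i, w' i = 0 → tr (w + w') = tr w * tr w'
  tr_const : ∀ (w : Fin n → Z2) (σ : alternatingGroup (Fin n)), ∑ i, w i = 0 →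
    rho (fun _ => σ) * tr w * (rho (fun _ => σ))⁻¹ = tr (fun i => w ((σ : Perm (Fin n))⁻¹ i))
  /-- translations not moving the floors of `f` commute with `f`. -/
  tr_comm : ∀ (w : Fin n → Z2) (f : LTile → alternatingGroup (Fin n)), ∑ i, w i = 0 →
    (∀ i T, (f T : Perm (Fin n)) i ≠ i → w i = 0) → Commute (tr w) (rho f)
  /-- horizontal Wang rule: east colour `c`, label `(x,y)` at `z` iff west colour `c`,
  label `(!x,y)` at `z + (1,0)`. -/
  adj_h : ∀ (w : Fin n → Z2) (σ : alternatingGroup (Fin n)) (c : Col) (x y : Bool),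
    ∑ i, w i = 0 → (∀ i, (σ : Perm (Fin n)) i ≠ i → w i = (1, 0)) →
    tr w * rho (fun T => if T.1.e = c ∧ T.1.la = x ∧ T.1.lb = y then σ else 1) * (tr w)⁻¹ =
      rho (fun T => if T.1.w = c ∧ T.1.la = !x ∧ T.1.lb = y then σ else 1)
  adj_v : ∀ (w : Fin n → Z2) (σ : alternatingGroup (Fin n)) (c : Col) (x y : Bool),
    ∑ i, w i = 0 → (∀ i, (σ : Perm (Fin n)) i ≠ i → w i = (0, 1)) →
    tr w * rho (fun T => if T.1.n = c ∧ T.1.la = x ∧ T.1.lb = y then σ else 1) * (tr w)⁻¹ =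
      rho (fun T => if T.1.s = c ∧ T.1.la = x ∧ T.1.lb = !y then σ else 1)

/-- the generating set of a `TileSys`. -/
def TileSys.gens {n : ℕ} {E : Type*} [Group E] (D : TileSys n E) : Set E :=
  Set.range D.rho ∪ {g | ∃ w : Fin n → Z2, ∑ i, w i = 0 ∧ g = D.tr w}

/-- `π` is the natural action of a `TileSys`. -/
def TileSys.IsNat {n : ℕ} {E : Type*} [Group E] (D : TileSys n E)
    (π : E →* Perm (Om n)) : Prop :=
  (∀ (T : LTile) (σ : alternatingGroup (Fin n)),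
    π (D.rho (Pi.mulSingle T σ)) = lampP {z | tl z = T.1} (σ : Perm (Fin n))) ∧
  ∀ w : Fin n → Z2, ∑ i, w i = 0 → π (D.tr w) = trP w

/-- **PRES**: the finitely presented group. -/
def PresStmt (n : ℕ) : Prop :=
  ∃ (E : Type) (_ : Group E) (D : TileSys n E) (π : E →* Perm (Om n)),
    Group.IsFinitelyPresented E ∧ Subgroup.closure D.gens = ⊤ ∧ D.IsNat π

/-- Lamps over all clopen sets, honestly (`C(X, Alt n) → Γ`), and floor translations. -/
structure LampSys (n : ℕ) (Γ : Type*) [Group Γ] where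
  ev : Set Z2 → (alternatingGroup (Fin n) →* Γ)
  tr : (Fin n → Z2) → Γ
  ev_union : ∀ (U U' : Set Z2) (σ : alternatingGroup (Fin n)), Clp U → Clp U' → Disjoint U U' →
    ev (U ∪ U') σ = ev U σ * ev U' σ
  ev_comm : ∀ (U U' : Set Z2) (σ τ : alternatingGroup (Fin n)), Clp U → Clp U' → Disjoint U U' →
    Commute (ev U σ) (ev U' τ)
  ev_disj : ∀ (U U' : Set Z2) (σ τ : alternatingGroup (Fin n)), Clp U → Clp U' →
    Perm.Disjoint (σ : Perm (Fin n)) (τ : Perm (Fin n)) → Commute (ev U σ) (ev U' τ)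
  tr_add : ∀ w w' : Fin n → Z2, ∑ i, w i = 0 → ∑ i, w' i = 0 → tr (w + w') = tr w * tr w'
  tr_const : ∀ (w : Fin n → Z2) (σ : alternatingGroup (Fin n)), ∑ i, w i = 0 →
    ev Set.univ σ * tr w * (ev Set.univ σ)⁻¹ = tr (fun i => w ((σ : Perm (Fin n))⁻¹ i))
  tr_conj : ∀ (w : Fin n → Z2) (v : Z2) (U : Set Z2) (σ : alternatingGroup (Fin n)), Clp U →
    ∑ i, w i = 0 → (∀ i, (σ : Perm (Fin n)) i ≠ i → w i = v) →
    tr w * ev U σ * (tr w)⁻¹ = ev (shiftS v U) σ

/-- compatibility of a `LampSys` on a quotient with a `TileSys`. -/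
def LampSys.Compat {n : ℕ} {E Γ : Type*} [Group E] [Group Γ] (L : LampSys n Γ) (q : E →* Γ)
    (D : TileSys n E) : Prop :=
  (∀ w : Fin n → Z2, ∑ i, w i = 0 → L.tr w = q (D.tr w)) ∧
  ∀ (T : LTile) (σ : alternatingGroup (Fin n)),
    L.ev {z | tl z = T.1} σ = q (D.rho (Pi.mulSingle T σ))

/-- **RIGID** (quantum rigidity modulo the centre). -/
def RigidStmt (n : ℕ) : Prop :=
  ∀ (E : Type) [Group E] (D : TileSys n E), Subgroup.closure D.gens = ⊤ →
    ∃ L : LampSys n (E ⧸ Subgroup.center E), L.Compat (QuotientGroup.mk' (Subgroup.center E)) D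

/-- **LIFT** (from modulo the centre to modulo a finite central subgroup). -/
def LiftStmt (n : ℕ) : Prop :=
  ∀ (E : Type) [Group E] (D : TileSys n E), Subgroup.closure D.gens = ⊤ →
    (∃ L : LampSys n (E ⧸ Subgroup.center E),
      L.Compat (QuotientGroup.mk' (Subgroup.center E)) D) →
    ∃ (Z : Subgroup E) (_ : Z.Normal), Z ≤ Subgroup.center E ∧ Finite Z ∧
      ∃ L : LampSys n (E ⧸ Z), L.Compat (QuotientGroup.mk' Z) D

/-- Three-cycles over arbitrary admissible cells, honestly. -/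
structure LamSys (n : ℕ) (Γ : Type*) [Group Γ] where
  lam : Set Z2 → Om n → Om n → Om n → Γ
  hom : ∀ (U : Set Z2) (S : Finset (Om n)), Clp U → Adm U (S : Set (Om n)) →
    ∃ f : alternatingGroup {x // x ∈ S} →* Γ, SendsCyc f (fun a b c => lam U a b c)
  shift : ∀ (U : Set Z2) (d : Z2) (α β γ : Om n), Clp U → α ≠ β → β ≠ γ → α ≠ γ →
    Adm (shiftS d U) {α, β, γ} →
    lam (shiftS d U) α β γ = lam U (shiftC d α) (shiftC d β) (shiftC d γ)
  union : ∀ (U U' : Set Z2) (α β γ : Om n), Clp U → Clp U' → Disjoint U U' →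
    α ≠ β → β ≠ γ → α ≠ γ → Adm (U ∪ U') {α, β, γ} →
    lam (U ∪ U') α β γ = lam U α β γ * lam U' α β γ
  comm : ∀ (U U' : Set Z2) (α β γ α' β' γ' : Om n), Clp U → Clp U' →
    α ≠ β → β ≠ γ → α ≠ γ → α' ≠ β' → β' ≠ γ' → α' ≠ γ' →
    Adm U {α, β, γ} → Adm U' {α', β', γ'} →
    Disjoint (supp U {α, β, γ}) (supp U' {α', β', γ'}) →
    Commute (lam U α β γ) (lam U' α' β' γ')

/-- `g` is the permutation the 3-cycle `α → β → γ` over `U`. -/
def IsLamP {n : ℕ} (g : Perm (Om n)) (U : Set Z2) (α β γ : Om n) : Prop :=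
  (∀ z ∈ U, g (z + α.1, α.2) = (z + β.1, β.2) ∧ g (z + β.1, β.2) = (z + γ.1, γ.2) ∧
    g (z + γ.1, γ.2) = (z + α.1, α.2)) ∧
  ∀ p, p ∉ supp U {α, β, γ} → g p = p

/-- **MULTI**: from lamps to all three-cycles (`n ≥ 10`). -/
def MultiStmt (n : ℕ) : Prop :=
  ∀ (Γ : Type) [Group Γ] (L : LampSys n Γ), ∃ M : LamSys n Γ,
    (∀ (U : Set Z2) (i j k : Fin n) (σ : alternatingGroup (Fin n)), Clp U → i ≠ j → j ≠ k →
      i ≠ k → (σ : Perm (Fin n)) = cyc3 i j k → M.lam U (0, i) (0, j) (0, k) = L.ev U σ) ∧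
    (∀ (w : Fin n → Z2) (U : Set Z2) (i j k : Fin n) (a b c : Z2), Clp U → ∑ i, w i = 0 →
      i ≠ j → j ≠ k → i ≠ k →
      M.lam U (a + w i, i) (b + w j, j) (c + w k, k) =
        L.tr w * M.lam U (a, i) (b, j) (c, k) * (L.tr w)⁻¹)

/-- **SEMEV**: a natural action is natural on all clopen lamps. -/
def SemEvStmt (n : ℕ) : Prop :=
  ∀ (Γ : Type) [Group Γ] (L : LampSys n Γ) (π : Γ →* Perm (Om n)),
    (∀ w : Fin n → Z2, ∑ i, w i = 0 → π (L.tr w) = trP w) →
    (∀ (T : LTile) (σ : alternatingGroup (Fin n)),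
      π (L.ev {z | tl z = T.1} σ) = lampP {z | tl z = T.1} (σ : Perm (Fin n))) →
    ∀ (U : Set Z2) (σ : alternatingGroup (Fin n)), Clp U →
      π (L.ev U σ) = lampP U (σ : Perm (Fin n))

/-- **SEMLAM**: a natural action is natural on all three-cycles. -/
def SemLamStmt (n : ℕ) : Prop :=
  ∀ (Γ : Type) [Group Γ] (L : LampSys n Γ) (M : LamSys n Γ) (π : Γ →* Perm (Om n)),
    (∀ w : Fin n → Z2, ∑ i, w i = 0 → π (L.tr w) = trP w) →
    (∀ (U : Set Z2) (σ : alternatingGroup (Fin n)), Clp U →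
      π (L.ev U σ) = lampP U (σ : Perm (Fin n))) →
    (∀ (U : Set Z2) (i j k : Fin n) (σ : alternatingGroup (Fin n)), Clp U → i ≠ j → j ≠ k →
      i ≠ k → (σ : Perm (Fin n)) = cyc3 i j k → M.lam U (0, i) (0, j) (0, k) = L.ev U σ) →
    (∀ (w : Fin n → Z2) (U : Set Z2) (i j k : Fin n) (a b c : Z2), Clp U → ∑ i, w i = 0 →
      i ≠ j → j ≠ k → i ≠ k →
      M.lam U (a + w i, i) (b + w j, j) (c + w k, k) =
        L.tr w * M.lam U (a, i) (b, j) (c, k) * (L.tr w)⁻¹) →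
    ∀ (U : Set Z2) (α β γ : Om n), Clp U → α ≠ β → β ≠ γ → α ≠ γ → Adm U {α, β, γ} →
      IsLamP (π (M.lam U α β γ)) U α β γ

/-- the letters. -/
def LamSys.letters {n : ℕ} {Γ : Type*} [Group Γ] (M : LamSys n Γ) : Set Γ :=
  {g | ∃ (T : Tile) (i j k : Fin n), i ≠ j ∧ j ≠ k ∧ i ≠ k ∧
      g = M.lam {z | tl z = T} (0, i) (0, j) (0, k)} ∪
  {g | ∃ (e : Z2) (i j k : Fin n), (e = (1, 0) ∨ e = (0, 1)) ∧ i ≠ j ∧ j ≠ k ∧ i ≠ k ∧
      g = M.lam Set.univ (0, i) (e, j) (0, k)}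

/-- the translation `+e` on floor `a`, `-e` on floor `b`, as a word in two letters. -/
def LamSys.tt {n : ℕ} {Γ : Type*} [Group Γ] (M : LamSys n Γ) (e : Z2) (i a b : Fin n) : Γ :=
  M.lam Set.univ (0, i) (e, a) (0, b) * (M.lam Set.univ (0, i) (0, a) (0, b))⁻¹

/-- **CUT**: the kernel is finite. -/
def CutStmt (n : ℕ) : Prop :=
  ∀ (Γ : Type) [Group Γ] (M : LamSys n Γ) (π : Γ →* Perm (Om n)),
    Subgroup.closure M.letters = ⊤ →
    (∀ (U : Set Z2) (α β γ : Om n), Clp U → α ≠ β → β ≠ γ → α ≠ γ → Adm U {α, β, γ} →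
      IsLamP (π (M.lam U α β γ)) U α β γ) →
    (∀ i a b c : Fin n, i ≠ a → i ≠ b → i ≠ c → a ≠ b → a ≠ c → b ≠ c →
      Commute (M.tt (1, 0) i a b) (M.tt (0, 1) i a c)) →
    (π.ker : Set Γ).Finite

/-- **FP** -/
def FPStmt (n : ℕ) : Prop := Group.IsFinitelyPresented (G n)

/-- **SIMPLE** -/
def SimpleStmt (n : ℕ) : Prop := IsSimpleGroup (G n)

/-- **AMEN** -/
def AmenStmt (n : ℕ) : Prop := IsAmenable (G n)

end Vale.Agent.P196.R2
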